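import Vale.Agent.P002A30.Defs

/-!
# P002: the representation scheme represents the functor of representations
-/

namespace Vale.Agent.N002

open Vale.Agent.P002A

/-- For every commutative ring `A`, the relation `IsPointOf θ` is a bijection between the
representations `G → SL_r(A)` and the `A`-points of `Rep_r`. -/
def Represents {G ι : Type} [Group G] {R : Set (FreeGroup ι)} (θ : PresentedGroup R ≃* G)
    (r : ℕ) : Prop :=
  ∀ (A : Type) [CommRing A],
    (∀ ρ, ∃! x : ORep r R →+* A, IsPointOf θ ρ x) ∧ ∀ x : ORep r R →+* A, ∃! ρ, IsPointOf θ ρ x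

end Vale.Agent.N002
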