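import Vale.Agent.N002.Unit
import Vale.Agent.P002A30.Fin
import Vale.Agent.P002G96.Geo
import Vale.Agent.P002S14.SS

/-!
# P002: relative character varieties of curves
-/

open Matrix Set
open Vale.Agent.P299G40 (PN IsSmoothVariety)

namespace Vale.Agent.N002

open Vale.Agent.P002A Vale.Agent.P002C Vale.Agent.P002.H252

theorem key_orb {G : Type} [Group G] {g n : ℕ} {m : Fin n → ℕ} {δ : G0 g n → G}
    (hδ : IsOrb g n m G δ) {ι : Type} {R : Set (FreeGroup ι)} (θ : PresentedGroup R ≃* G) {r : ℕ}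
    (S : Set (Fin n)) (B : Fin n → SpecialLinearGroup (Fin r) ℂ)
    (hB : ∀ i ∈ S, ∀ z ∈ spectrum ℂ (B i).1, IsIntegral ℤ z ∧ IsIntegral ℤ z⁻¹) :
    ∃ L : IntermediateField ℚ ℂ, FiniteDimensional ℚ L ∧
      {x : CPt (ORep r R) | ∃ σ, IsPointOf θ σ x ∧ (toRep σ).IsSemisimpleRepresentation ∧
        ∀ i ∈ S, IsConj (B i) (σ (δ (Sum.inr i)))} ⊆ closure (intPts _ L ∩
      {x | ∃ σ, IsPointOf θ σ x ∧ (toRep σ).IsSemisimpleRepresentation ∧
        ∀ i ∈ S, IsConj (B i) (σ (δ (Sum.inr i)))}) := by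
  obtain ⟨θ₀, hθ₀⟩ := (stdGen_isOrb g n m).equiv hδ
  obtain ⟨L, hL, -, h⟩ := (P002B.main5 P002L.g01Irr P002B.g0All 1 (fun _ => g) (fun _ => n)
    (fun _ => m) r (fun _ => S) (fun _ => B)).1
    fun _ j hj z hz => hB j hj z (mem_spectrum_iff_isRoot_charpoly.2 hz)
  refine ⟨L, hL, transfer θ θ₀ ?_⟩
  have hiff : ∀ y, (∃ σ, IsPointOf θ₀ σ y ∧ (toRep σ).IsSemisimpleRepresentation ∧
      ∀ i ∈ S, IsConj (B i) (σ (δ (Sum.inr i)))) ↔ gens y ∈ P002R.Orb.Y (g := fun _ : Fin 1 => g)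
        (fun _ => m) (fun _ => S) (fun _ => B) := by
    intro y
    have h0 := mem_repLocus θ₀ (s := 0) Fin.elim0 Fin.elim0 y
    constructor
    · rintro ⟨σ, hy, hs, hc⟩
      refine ⟨(h0.1 ⟨σ, hy, hs, fun j => j.elim0⟩).1, fun i j hj => ?_⟩
      obtain rfl : i = 0 := Subsingleton.elim _ _
      rw [hy]
      exact (hθ₀ (Sum.inr j)).symm ▸ hc j hj
    · rintro ⟨h1, h2⟩
      obtain ⟨σ, hy, hs, -⟩ := h0.2 ⟨h1, fun j => j.elim0⟩
      refine ⟨σ, hy, hs, fun j hj => ?_⟩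
      have h3 := h2 0 j hj
      rw [hy] at h3
      exact hθ₀ (Sum.inr j) ▸ h3
  intro x hx
  refine mem_closure_rep fun F hF => h F (fun X hX hI => ?_) _ ((hiff x).1 hx)
  obtain ⟨y, rfl⟩ := exists_point hX.1.1
  exact hF y ⟨mem_intPts hI, (hiff y).2 hX⟩

theorem main {N : ℕ} (Z : Set (PN N)) (hZ : IsSmoothVariety 1 Z)
    (D : Set (An Z)) (hD : D.Finite) (x₀ : ↥Dᶜ) :
    PathConnectedSpace ↥Dᶜ ∧ Group.IsFinitelyPresented (FundamentalGroup ↥Dᶜ x₀) ∧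
    (∀ p ∈ D, ∃ γ, IsMeridian D x₀ p γ) ∧
    (∀ (r : ℕ) (C : SpecialLinearGroup (Fin r) ℂ), Examples C) ∧
    ∀ (ι : Type) [Finite ι] (R : Set (FreeGroup ι))
      (θ : PresentedGroup R ≃* FundamentalGroup ↥Dᶜ x₀) (r : ℕ),
      (∀ (A : Type) [CommRing A],
        (∀ ρ, ∃! x : ORep r R →+* A, IsPointOf θ ρ x) ∧
        ∀ x : ORep r R →+* A, ∃! ρ, IsPointOf θ ρ x) ∧
      -- (1) no boundary condition
      (∃ L : IntermediateField ℚ ℂ, FiniteDimensional ℚ L ∧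
        DenseIn (intPts (OM r R) L) Set.univ) ∧
      ∀ (s : ℕ) (γ : Fin s → FundamentalGroup ↥Dᶜ x₀) (C : Fin s → SpecialLinearGroup (Fin r) ℂ),
        (∀ j, ∃ p ∈ D, IsMeridian D x₀ p (γ j)) →
        -- (2) quasi-unipotent classes
        ((∀ j, IsQuasiUnipotent (C j)) → ∃ L : IntermediateField ℚ ℂ, FiniteDimensional ℚ L ∧
          DenseIn (intPts (OM r R) L) (locus θ γ C)) ∧
        -- (3) eigenvalues which are algebraic integers
        ((∀ j, ∀ z ∈ spectrum ℂ (C j).1, IsIntegral ℤ z) →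
          ∃ L : IntermediateField ℚ ℂ, FiniteDimensional ℚ L ∧
            ∀ T, (∀ j, Adm (C j) (T j)) → DenseFor θ γ L T) ∧
        -- (4) the converse
        ∀ T, (∀ j, Adm (C j) (T j)) → ∀ L : IntermediateField ℚ ℂ,
          (intPts (OM r R) L ∩ imageIn θ γ T).Nonempty →
          ∀ j, ∀ z ∈ spectrum ℂ (C j).1, IsIntegral ℤ z := by
  obtain ⟨h1, h2, h3, h4⟩ := final_of geo ss Z hZ D hD x₀
  refine ⟨h1, h2, h3, fun r C => ⟨adm_class C, (adm_class C).closure, adm_zarCl C, adm_fibre C,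
    isClosed_zarCl C, isClosed_fibre C⟩, fun ι _ R θ r => ?_⟩
  obtain ⟨h5, h6, h7⟩ := h4 ι R θ r
  refine ⟨h5, h6, fun s γ C hγ => ⟨fun hC => ?_, fun hC => ?_, ?_⟩⟩
  · obtain ⟨L, hL, h, -⟩ := h7 s γ C hγ hC
    exact ⟨L, hL, h⟩
  · obtain ⟨_, _, _, _, _, -⟩ := geo N Z hZ
    obtain ⟨g, n, m, δ, hδ, hper⟩ := P002Z.curve_isOrb hD x₀
    obtain ⟨L, hL, h⟩ := dense_units θ (fun i => δ (Sum.inr i)) (key_orb hδ θ) γ (fun j => by
      obtain ⟨p, hp, h⟩ := hγ j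
      exact hper p hp _ h.localAt) C hC
    exact ⟨L, hL, fun T hT =>
      ⟨denseIn_image (OM r R).subtype (h T hT) (mapsTo_image _ _) subset_closure,
        denseIn_image (RingHom.id _) (h T hT) (fun _ hx => hx)
          fun x hx => subset_closure ⟨x, hx, rfl⟩,
        fun hc => imageIn_eq θ γ T hc fun j => (hT j).2⟩⟩
  · rintro T hT L ⟨_, hx, x, ⟨ρ, hρ, hj⟩, rfl⟩ j z hz
    refine integral_of_point θ hx hρ (γ j) ?_
    rwa [spec_eq ((hT j).1 _ (hj j))]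

end Vale.Agent.N002
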