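import Vale.Agent.N002.Defs
import Vale.Agent.N002.Main

/-!
# P002: integral points on absolute and relative character varieties of curves

For smooth curves the integral points over one number field are dense, in every component, exactly
when the eigenvalues of the boundary classes are algebraic integers.
-/

open Matrix
open Vale.Agent.P299G40 (PN IsSmoothVariety)

namespace Vale.Agent.N002.OldRelative

open Vale.Agent.P002A Vale.Agent.P002C

theorem old {N : ℕ} (Z : Set (PN N)) (hZ : IsSmoothVariety 1 Z)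
    (D : Set (An Z)) (hD : D.Finite) (x₀ : ↥Dᶜ) :
    PathConnectedSpace ↥Dᶜ ∧ Group.IsFinitelyPresented (FundamentalGroup ↥Dᶜ x₀) ∧
    (∀ p ∈ D, ∃ γ, IsMeridian D x₀ p γ) ∧
    (∀ (r : ℕ) (C : SpecialLinearGroup (Fin r) ℂ), Examples C) ∧
    ∀ (ι : Type) [Finite ι] (R : Set (FreeGroup ι))
      (θ : PresentedGroup R ≃* FundamentalGroup ↥Dᶜ x₀) (r : ℕ),
      N002.Represents θ r ∧
      -- (1) no boundary condition
      (∃ L : IntermediateField ℚ ℂ, FiniteDimensional ℚ L ∧
        DenseIn (intPts (OM r R) L) Set.univ) ∧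
      ∀ (s : ℕ) (γ : Fin s → FundamentalGroup ↥Dᶜ x₀) (C : Fin s → SpecialLinearGroup (Fin r) ℂ),
        (∀ j, ∃ p ∈ D, IsMeridian D x₀ p (γ j)) →
        -- (2) quasi-unipotent classes
        ((∀ j, IsQuasiUnipotent (C j)) → ∃ L : IntermediateField ℚ ℂ, FiniteDimensional ℚ L ∧
          DenseIn (intPts (OM r R) L) (locus θ γ C)) ∧
        -- (3) eigenvalues which are algebraic integers
        ((∀ j, ∀ z ∈ spectrum ℂ (C j).1, IsIntegral ℤ z) →
          ∃ L : IntermediateField ℚ ℂ, FiniteDimensional ℚ L ∧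
            ∀ T, (∀ j, Adm (C j) (T j)) → DenseFor θ γ L T) ∧
        -- (4) the converse
        ∀ T, (∀ j, Adm (C j) (T j)) → ∀ L : IntermediateField ℚ ℂ,
          (intPts (OM r R) L ∩ imageIn θ γ T).Nonempty →
          ∀ j, ∀ z ∈ spectrum ℂ (C j).1, IsIntegral ℤ z :=
  N002.main Z hZ D hD x₀

end Vale.Agent.N002.OldRelative
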