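import Vale.Agent.P002C97.Jor
import Vale.Agent.P002C97.Defs2

/-!
# P002: boundary classes whose eigenvalues are algebraic integers
-/

open Matrix Set NumberField

namespace Vale.Agent.N002

open Vale.Agent.P002A Vale.Agent.P002C Vale.Agent.P002R.Orb Vale.Agent.P002.H326J

variable {r : ℕ}

theorem spec_finite (A : Matrix (Fin r) (Fin r) ℂ) : (spectrum ℂ A).Finite :=
  (Polynomial.finite_setOfPred_isRoot (Matrix.charpoly_monic A).ne_zero).subset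
    fun _ hz => mem_spectrum_iff_isRoot_charpoly.1 hz

theorem spec_eq {A B : Matrix (Fin r) (Fin r) ℂ} (h : A.charpoly = B.charpoly) :
    spectrum ℂ A = spectrum ℂ B := by
  ext z
  rw [mem_spectrum_iff_isRoot_charpoly, mem_spectrum_iff_isRoot_charpoly, h]

theorem inv_integral {C : SpecialLinearGroup (Fin r) ℂ}
    (hC : ∀ z ∈ spectrum ℂ C.1, IsIntegral ℤ z) {z : ℂ} (hz : z ∈ spectrum ℂ C.1) :
    z ≠ 0 ∧ IsIntegral ℤ z⁻¹ := by
  classical
  have hm : ∀ {w}, w ∈ C.1.charpoly.roots ↔ w ∈ spectrum ℂ C.1 := by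
    intro w
    rw [Polynomial.mem_roots (Matrix.charpoly_monic _).ne_zero, mem_spectrum_iff_isRoot_charpoly]
  have h1 : z * (C.1.charpoly.roots.erase z).prod = 1 := by
    rw [Multiset.prod_erase (hm.2 hz), ← det_eq_prod_roots_charpoly, C.2]
  refine ⟨left_ne_zero_of_mul_eq_one h1, ?_⟩
  rw [inv_eq_of_mul_eq_one_right h1]
  exact IsIntegral.multiset_prod fun w hw => hC w (hm.1 (Multiset.mem_of_mem_erase hw))

theorem zpow_mem (A : SpecialLinearGroup (Fin r) ℂ) (a : ℤ) {z : ℂ} (hz : z ∈ spectrum ℂ A.1) :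
    z ^ a ∈ spectrum ℂ (A ^ a).1 := by
  have h1 : ∀ n : ℕ, z ^ n ∈ spectrum ℂ (A ^ n).1 := fun n => by
    have h : (A ^ n).1 = A.1 ^ n := Matrix.SpecialLinearGroup.coe_pow A n
    rw [h]
    exact spectrum.pow_mem_pow _ n hz
  have h2 : ∀ (B : SpecialLinearGroup (Fin r) ℂ) (w : ℂ), w ∈ spectrum ℂ B.1 →
      w⁻¹ ∈ spectrum ℂ (B⁻¹).1 := by
    intro B w hw
    let u : (Matrix (Fin r) (Fin r) ℂ)ˣ := ⟨B.1, (B⁻¹).1, congrArg Subtype.val (mul_inv_cancel B),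
      congrArg Subtype.val (inv_mul_cancel B)⟩
    have h0 : w ≠ 0 := by
      rintro rfl
      exact (spectrum.zero_mem_iff ℂ).1 hw u.isUnit
    exact (spectrum.inv_mem_iff (r := Units.mk0 w h0) (a := u)).1 hw
  obtain ⟨n, rfl | rfl⟩ := a.eq_nat_or_neg
  · rw [zpow_natCast, zpow_natCast]
    exact h1 n
  · rw [_root_.zpow_neg, _root_.zpow_neg, zpow_natCast, zpow_natCast]
    exact h2 _ _ (h1 n)

theorem root_unit {z : ℂ} {a : ℤ} (ha : a ≠ 0) (h1 : IsIntegral ℤ (z ^ a))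
    (h2 : IsIntegral ℤ (z ^ a)⁻¹) : IsIntegral ℤ z ∧ IsIntegral ℤ z⁻¹ := by
  obtain ⟨n, rfl | rfl⟩ := a.eq_nat_or_neg
  · have hn : 0 < n := by omega
    rw [zpow_natCast] at h1 h2
    exact ⟨h1.of_pow hn, IsIntegral.of_pow hn (by rwa [inv_pow])⟩
  · have hn : 0 < n := by omega
    rw [_root_.zpow_neg, zpow_natCast] at h1 h2
    rw [inv_inv] at h2
    exact ⟨h2.of_pow hn, IsIntegral.of_pow hn (by rwa [inv_pow])⟩

theorem root_finite {a : ℤ} (ha : a ≠ 0) (c : ℂ) : {z : ℂ | z ^ a = c}.Finite := by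
  have h : ∀ n : ℕ, 0 < n → ∀ c : ℂ, {z : ℂ | z ^ n = c}.Finite := fun n hn c =>
    (Polynomial.nthRoots n c).finite_toSet.subset fun z hz => (Polynomial.mem_nthRoots hn).2 hz
  obtain ⟨n, rfl | rfl⟩ := a.eq_nat_or_neg
  · simpa using h n (by omega) c
  · refine (h n (by omega) c⁻¹).subset fun z hz => ?_
    rw [mem_setOf_eq, _root_.zpow_neg, zpow_natCast] at hz
    rw [mem_setOf_eq, ← hz, inv_inv]

theorem fin_classes' {F : Set ℂ} (hF : F.Finite) :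
    ∃ S : Set (SpecialLinearGroup (Fin r) ℂ), S.Finite ∧ (∀ B ∈ S, spectrum ℂ B.1 ⊆ F) ∧
      ∀ A : SpecialLinearGroup (Fin r) ℂ, spectrum ℂ A.1 ⊆ F → ∃ B ∈ S, IsConj B A := by
  have h1 : {d : Fin r → ℂ | ∀ i, d i ∈ F}.Finite := Set.Finite.pi' fun _ => hF
  have h2 := h1.image fun d => ∏ i, (Polynomial.X - Polynomial.C (d i))
  let P := {p : Polynomial ℂ | ∃ C : SpecialLinearGroup (Fin r) ℂ,
    spectrum ℂ C.1 ⊆ F ∧ C.1.charpoly = p}
  have h3 : P.Finite := h2.subset <| by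
    rintro _ ⟨C, hC, rfl⟩
    obtain ⟨d, -, -, -, hd, -⟩ := Vale.Agent.P002.exists_jordan C.1
    refine ⟨d, fun i => hC (mem_spectrum_iff_isRoot_charpoly.2 ?_), hd.symm⟩
    rw [hd, Polynomial.IsRoot.def, Polynomial.eval_prod]
    exact Finset.prod_eq_zero (Finset.mem_univ i) (by simp)
  have : Finite P := h3
  choose C hC hp using fun p : P => p.2
  choose S hS hcp hall using fun p : P => fin_classes (C p)
  refine ⟨⋃ p, S p, finite_iUnion hS, fun B hB => ?_, fun A hA => ?_⟩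
  · obtain ⟨p, hB⟩ := mem_iUnion.1 hB
    rw [spec_eq (hcp p B hB)]
    exact hC p
  · obtain ⟨B, hB, h⟩ := hall ⟨_, A, hA, rfl⟩ A (hp ⟨_, A, hA, rfl⟩).symm
    exact ⟨B, mem_iUnion.2 ⟨_, hB⟩, h⟩

variable {G ι ι₀ : Type} [Group G] {R : Set (FreeGroup ι)} {R₀ : Set (FreeGroup ι₀)}
  (θ : PresentedGroup R ≃* G) (θ₀ : PresentedGroup R₀ ≃* G)

/-- change of the presentation -/
theorem exists_change : ∃ ψ : ORep r R →+* ORep r R₀,
    ∀ (σ : G →* SpecialLinearGroup (Fin r) ℂ) (y : ORep r R₀ →+* ℂ),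
      IsPointOf θ₀ σ y → IsPointOf θ σ (y.comp ψ) := by
  obtain ⟨τ, hτ⟩ := exists_hom θ₀ (RingHom.id (ORep r R₀))
  obtain ⟨ψ, hψ⟩ := exists_of_hom θ τ
  refine ⟨ψ, fun σ y hy p => ?_⟩
  have h1 : IsPointOf θ₀ ((SpecialLinearGroup.map y).comp τ) y := fun q => by
    rw [MonoidHom.comp_apply, ← hτ q]
    rfl
  rw [((represents θ₀).2 y).unique hy h1, MonoidHom.comp_apply, ← hψ p]
  rfl

theorem transfer {L : IntermediateField ℚ ℂ} {P : (G →* SpecialLinearGroup (Fin r) ℂ) → Prop}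
    (h : {y : CPt (ORep r R₀) | ∃ σ, IsPointOf θ₀ σ y ∧ P σ} ⊆
      closure (intPts _ L ∩ {y | ∃ σ, IsPointOf θ₀ σ y ∧ P σ})) :
    {x : CPt (ORep r R) | ∃ σ, IsPointOf θ σ x ∧ P σ} ⊆
      closure (intPts _ L ∩ {x | ∃ σ, IsPointOf θ σ x ∧ P σ}) := by
  obtain ⟨ψ, hψ⟩ := exists_change (r := r) θ θ₀
  rintro x ⟨σ, hx, hσ⟩
  obtain ⟨y, hy⟩ := exists_of_hom θ₀ σ
  obtain rfl : x = res ψ y := ((represents θ).1 σ).unique hx (hψ σ y hy)
  refine closure_mono ?_ (image_closure_subset_closure_image (continuous_res ψ)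
    ⟨y, h ⟨σ, hy, hσ⟩, rfl⟩)
  rintro _ ⟨z, ⟨h1, τ, h2, h3⟩, rfl⟩
  exact ⟨res_int ψ L h1, τ, hψ τ z h2, h3⟩

/-- one field for all admissible conditions at powers of the given elements -/
theorem dense_units {n s : ℕ} (δ : Fin n → G)
    (key : ∀ (S : Set (Fin n)) (B : Fin n → SpecialLinearGroup (Fin r) ℂ),
      (∀ i ∈ S, ∀ z ∈ spectrum ℂ (B i).1, IsIntegral ℤ z ∧ IsIntegral ℤ z⁻¹) →
      ∃ L : IntermediateField ℚ ℂ, FiniteDimensional ℚ L ∧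
        {x : CPt (ORep r R) | ∃ σ, IsPointOf θ σ x ∧ (toRep σ).IsSemisimpleRepresentation ∧
          ∀ i ∈ S, IsConj (B i) (σ (δ i))} ⊆ closure (intPts _ L ∩
        {x | ∃ σ, IsPointOf θ σ x ∧ (toRep σ).IsSemisimpleRepresentation ∧
          ∀ i ∈ S, IsConj (B i) (σ (δ i))}))
    (γ : Fin s → G) (hγ : ∀ j, ∃ (i : Fin n) (h : G) (a : ℤ), γ j = h * δ i ^ a * h⁻¹)
    (C : Fin s → SpecialLinearGroup (Fin r) ℂ)
    (hC : ∀ j, ∀ z ∈ spectrum ℂ (C j).1, IsIntegral ℤ z) :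
    ∃ L : IntermediateField ℚ ℂ, FiniteDimensional ℚ L ∧
      ∀ T : Fin s → Set (SpecialLinearGroup (Fin r) ℂ), (∀ j, Adm (C j) (T j)) →
        repIn θ γ T ⊆ closure (intPts _ L ∩ repIn θ γ T) := by
  classical
  choose i h a hγ using hγ
  let F : Set ℂ := ⋃ j ∈ {j | a j ≠ 0}, ⋃ c ∈ spectrum ℂ (C j).1, {z | z ^ a j = c}
  have hF : F.Finite := (toFinite _).biUnion fun j hj =>
    (spec_finite _).biUnion fun c _ => root_finite hj c
  have hFu : ∀ z ∈ F, IsIntegral ℤ z ∧ IsIntegral ℤ z⁻¹ := by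
    intro z hz
    simp only [F, mem_iUnion] at hz
    obtain ⟨j, hj, c, hc, rfl⟩ := hz
    exact root_unit hj (hC j _ hc) (inv_integral (hC j) hc).2
  obtain ⟨K, hK, hKF, hall⟩ := fin_classes' (r := r) hF
  let S : Set (Fin n) := {l | ∃ j, a j ≠ 0 ∧ i j = l}
  have : Finite K := hK
  let ext : (S → K) → Fin n → SpecialLinearGroup (Fin r) ℂ :=
    fun B l => if hl : l ∈ S then (B ⟨l, hl⟩).1 else 1
  have hext : ∀ B l (hl : l ∈ S), ext B l = (B ⟨l, hl⟩).1 := fun B l hl => dif_pos hl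
  choose L hL hd using fun B : S → K => key S (ext B) fun l hl z hz =>
    hFu z (hKF _ (B ⟨l, hl⟩).2 (hext B l hl ▸ hz))
  refine ⟨⨆ B, L B, IntermediateField.finiteDimensional_iSup_of_finite, fun T hT => ?_⟩
  have hc : ∀ (σ : G →* SpecialLinearGroup (Fin r) ℂ) j, IsConj (σ (δ (i j)) ^ a j) (σ (γ j)) :=
    fun σ j => isConj_iff.2 ⟨σ (h j), by rw [hγ, map_mul, map_mul, map_inv, map_zpow]⟩
  rintro x ⟨ρ, hx, hs, hρ⟩
  have h1 : ∀ l : S, spectrum ℂ (ρ (δ l)).1 ⊆ F := by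
    rintro ⟨_, j, hj, rfl⟩ z hz
    simp only [F, mem_iUnion]
    refine ⟨j, hj, _, ?_, rfl⟩
    rw [← spec_eq ((hT j).1 _ (hρ j)), spec_eq (cp_conj (hc ρ j))]
    exact zpow_mem _ _ hz
  choose B hB hcB using fun l : S => hall _ (h1 l)
  refine closure_mono ?_ (hd (fun l => ⟨B l, hB l⟩)
    ⟨ρ, hx, hs, fun l hl => (hext (fun l => ⟨B l, hB l⟩) l hl).symm ▸ hcB ⟨l, hl⟩⟩)
  rintro y ⟨hi, σ, hy, hσ, hj⟩
  refine ⟨intPts_mono (le_iSup L _) hi, σ, hy, hσ, fun j => (hT j).2 _ (hρ j) _ ?_⟩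
  refine (hc ρ j).symm.trans (IsConj.trans ?_ (hc σ j))
  by_cases ha : a j = 0
  · rw [ha, zpow_zero, zpow_zero]
  · have h3 : ext (fun l => ⟨B l, hB l⟩) (i j) = B ⟨i j, j, ha, rfl⟩ :=
      hext (fun l => ⟨B l, hB l⟩) _ ⟨j, ha, rfl⟩
    have h2 : IsConj (B ⟨i j, j, ha, rfl⟩) (σ (δ (i j))) := h3 ▸ hj (i j) ⟨j, ha, rfl⟩
    obtain ⟨g, hg⟩ := isConj_iff.1 ((hcB ⟨i j, j, ha, rfl⟩).symm.trans h2)
    exact isConj_iff.2 ⟨g, by rw [← hg, conj_zpow]⟩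

/-- an integral point forces integral eigenvalues -/
theorem integral_of_point {L : IntermediateField ℚ ℂ} {x : ORep r R →+* ℂ}
    (hx : (x.comp (OM r R).subtype : CPt (OM r R)) ∈ intPts (OM r R) L)
    {ρ : G →* SpecialLinearGroup (Fin r) ℂ} (hρ : IsPointOf θ ρ x) (g : G) {z : ℂ}
    (hz : z ∈ spectrum ℂ (ρ g).1) : IsIntegral ℤ z := by
  obtain ⟨y, hy⟩ := hx
  obtain ⟨a, rfl⟩ := θ.surjective g
  obtain ⟨w, rfl⟩ := PresentedGroup.mk_surjective R a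
  let p := (FreeGroup.lift (gens (RingHom.id (ORep r R))) w).1.charpoly
  have hp : ∀ (A : Type) [CommRing A] (u : ORep r R →+* A) (k : ℕ),
      u (p.coeff k) = (FreeGroup.lift (gens u) w).1.charpoly.coeff k := by
    intro A _ u k
    have h1 : gens u = fun q => SpecialLinearGroup.map u (gens (RingHom.id _) q) := rfl
    rw [h1, lift_map, ← Polynomial.coeff_map, ← Matrix.charpoly_map]
    rfl
  have hmem : ∀ k, p.coeff k ∈ OM r R := by
    intro k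
    simp only [OM, Subring.mem_iInf]
    rintro A _ u v ⟨g, hg⟩
    have h1 : FreeGroup.lift (gens v) w = g * FreeGroup.lift (gens u) w * g⁻¹ :=
      DFunLike.congr_fun (FreeGroup.ext_hom _ ((MulAut.conj g).toMonoidHom.comp
        (FreeGroup.lift (gens u))) fun q => by simp [hg]) w
    have h2 : (g⁻¹).1 * g.1 = 1 := congrArg Subtype.val (inv_mul_cancel g)
    change u (p.coeff k) = v (p.coeff k)
    rw [hp, hp, h1]
    change _ = (g.1 * _ * (g⁻¹).1).charpoly.coeff k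
    rw [Matrix.charpoly_mul_comm, ← Matrix.mul_assoc, h2, Matrix.one_mul]
  have hl : (ρ (θ (PresentedGroup.mk R w))).1.charpoly ∈
      Polynomial.lifts (algebraMap (𝓞 L) ℂ) := by
    refine (Polynomial.lifts_iff_coeff_lifts _).2 fun k => ⟨y ⟨_, hmem k⟩, ?_⟩
    rw [← hρ.lift θ w]
    exact (RingHom.congr_fun (α := OM r R) (β := ℂ) hy ⟨_, hmem k⟩).trans (hp ℂ x k)
  obtain ⟨q, hq, -, hm⟩ := Polynomial.lifts_and_natDegree_eq_and_monic hl (Matrix.charpoly_monic _)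
  refine isIntegral_trans (A := 𝓞 L) z ⟨q, hm, ?_⟩
  rw [Polynomial.eval₂_eq_eval_map, hq]
  exact mem_spectrum_iff_isRoot_charpoly.1 hz

end Vale.Agent.N002
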